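import Vale.Agent.P251.H603.V3.Defs
import Vale.Agent.P251.H603.Adams

/-!
The cobar complex of an object `Y`, as the complex of iterates `E ⊗ (E ⊗ (⋯ (E ⊗ Y)))`.
-/

set_option linter.unusedSectionVars false

open CategoryTheory MonoidalCategory Limits Pretriangulated MonObj

universe v u w

namespace Vale.Agent.P251.V3

variable {D : Type u} [Category.{v} D] [MonoidalCategory D]

/-- The unit `Y ⟶ E ⊗ Y`. -/
def unitL (E : D) [MonObj E] (Y : D) : Y ⟶ E ⊗ Y := (λ_ Y).inv ≫ (η[E] ▷ Y)

/-- The differential of the cobar complex, `∑_{i ≤ k} (-1)^i (unit in position i)`. -/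
def cobD [Preadditive D] (E : D) [MonObj E] (Y : D) : (k : ℕ) → (tpow E Y k ⟶ E ⊗ tpow E Y k)
  | 0 => unitL E Y
  | k + 1 => unitL E (E ⊗ tpow E Y k) - E ◁ (cobD E Y k)

/-- Exactness of `Hom(W, -)` of the cobar complex of `Y` at `E ⊗ E^{⊗ s} ⊗ Y`, that is
`H^s = 0` (`s ≥ 1`). -/
def CobExact [Preadditive D] (E : D) [MonObj E] (Y W : D) (s : ℕ) : Prop :=
  ∀ z : W ⟶ E ⊗ tpow E Y s, z ≫ cobD E Y (s + 1) = 0 →
    ∃ w : W ⟶ tpow E Y s, w ≫ cobD E Y s = z

/-- A tensor triangulated category in the sense of this folder is one in the sense of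
`Vale.Agent.P251.H603`. -/
@[reducible] def toH603 (D : Type u) [Category.{v} D] [Preadditive D] [HasZeroObject D]
    [HasShift D ℤ] [∀ n : ℤ, (shiftFunctor D n).Additive] [Pretriangulated D]
    [MonoidalCategory D] [h : TensorTriangulated D] : H603.TensorTriangulated D where
  shiftIso := h.shiftIso
  shiftIso_natural_right := h.shiftIso_natural_right
  shiftIso_natural_left := h.shiftIso_natural_left
  distinguished := h.distinguished

end Vale.Agent.P251.V3
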