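import Mathlib.CategoryTheory.Triangulated.Pretriangulated
import Mathlib.CategoryTheory.Monoidal.Braided.Basic
import Mathlib.CategoryTheory.Monoidal.Preadditive
import Mathlib.CategoryTheory.Monoidal.Mon
import Mathlib.Algebra.BigOperators.Fin
import Mathlib.Topology.Constructions

/-!
Definitions used in the statement that the weak chromatic splitting conjecture fails: the version
with the Morava stabilizer group and its continuous cohomology.
-/

open CategoryTheory MonoidalCategory Limits Pretriangulated MonObj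

universe v u w

namespace Vale.Agent.P251.V3

/-- A tensor triangulated category: a (pre)triangulated category with an additive tensor product,
which commutes with the shift, naturally in both variables and compatibly with the unit, and
preserves distinguished triangles (in the second variable; all the categories used below are
symmetric, so that it does so in both variables). -/
class TensorTriangulated (T : Type u) [Category.{v} T] [Preadditive T] [HasZeroObject T]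
    [HasShift T ℤ] [∀ n : ℤ, (shiftFunctor T n).Additive] [Pretriangulated T]
    [MonoidalCategory T] extends MonoidalPreadditive T where
  /-- the natural isomorphism `X ⊗ ΣY ≅ Σ(X ⊗ Y)` -/
  shiftIso (X Y : T) : X ⊗ (Y⟦(1 : ℤ)⟧) ≅ (X ⊗ Y)⟦(1 : ℤ)⟧
  shiftIso_natural_right (X : T) {Y Z : T} (f : Y ⟶ Z) :
    (X ◁ f⟦(1 : ℤ)⟧') ≫ (shiftIso X Z).hom = (shiftIso X Y).hom ≫ (X ◁ f)⟦(1 : ℤ)⟧'
  shiftIso_natural_left {X Y : T} (f : X ⟶ Y) (Z : T) :
    (f ▷ (Z⟦(1 : ℤ)⟧)) ≫ (shiftIso Y Z).hom = (shiftIso X Z).hom ≫ (f ▷ Z)⟦(1 : ℤ)⟧'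
  shiftIso_unit (X : T) :
    (shiftIso (𝟙_ T) X).hom ≫ ((λ_ X).hom)⟦(1 : ℤ)⟧' = (λ_ (X⟦(1 : ℤ)⟧)).hom
  distinguished (X : T) (Δ : Triangle T) (hΔ : Δ ∈ distTriang T) :
    Triangle.mk (X ◁ Δ.mor₁) (X ◁ Δ.mor₂) ((X ◁ Δ.mor₃) ≫ (shiftIso X Δ.obj₁).hom) ∈ distTriang T

section

variable {T : Type u} [Category.{v} T] [Preadditive T] [MonoidalCategory T]

/-- `f : X ⟶ Y` is the Bousfield localization of `X` with respect to `E`. -/
def IsBousfieldLocalization (E : T) {X Y : T} (f : X ⟶ Y) : Prop :=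
  IsIso (E ◁ f) ∧ ∀ Z : T, IsZero (E ⊗ Z) → ∀ g : Z ⟶ Y, g = 0

end

section

variable {T : Type u} [Category.{v} T] [MonoidalCategory T]

/-- The tensor product `P ⊗ (P ⊗ (⋯ ⊗ (P ⊗ Y)))`, with `k` factors `P`. -/
def tpow (P Y : T) : ℕ → T
  | 0 => Y
  | k + 1 => P ⊗ tpow P Y k

/-- The `k`-th power `P^{⊗ k} ⟶ 𝟙` of a morphism `x : P ⟶ 𝟙`. -/
def power {P : T} (x : P ⟶ 𝟙_ T) : (k : ℕ) → (tpow P (𝟙_ T) k ⟶ 𝟙_ T)
  | 0 => 𝟙 _
  | k + 1 => (x ⊗ₘ power x k) ≫ (λ_ (𝟙_ T)).hom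

end

section

variable {D : Type u} [Category.{v} D] [MonoidalCategory D]

/-- For a map of monoids `ρ g : E ⟶ E` for every `g ∈ G`, and `g₁, …, g_s ∈ G`: the morphism
`E^{⊗(s+1)} ⟶ E`, `a₀ ⊗ a₁ ⊗ ⋯ ⊗ a_s ↦ a₀ (g₁ a₁) (g₁ g₂ a₂) ⋯ (g₁ ⋯ g_s a_s)`. -/
def evalAt {E : D} [MonObj E] {G : Type w} (ρ : G → (E ⟶ E)) :
    (s : ℕ) → (Fin s → G) → (tpow E (𝟙_ D) (s + 1) ⟶ E)
  | 0, _ => (ρ_ E).hom
  | s + 1, g => (E ◁ (evalAt ρ s (fun i => g i.succ) ≫ ρ (g 0))) ≫ μ[E]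

variable [Preadditive D]

/-- The differential of the complex of inhomogeneous cochains of the group `G` with values in
`Hom(P, E)`:
`(d f)(g₁, …, g_{s+1}) = g₁ f(g₂, …, g_{s+1}) - f(g₁ g₂, …) + ⋯ + (-1)^{s+1} f(g₁, …, g_s)`. -/
def coboundary {E : D} {G : Type w} [Group G] (ρ : G → (E ⟶ E)) {P : D} {s : ℕ}
    (f : (Fin s → G) → (P ⟶ E)) (g : Fin (s + 1) → G) : P ⟶ E :=
  f (fun i => g i.succ) ≫ ρ (g 0) +
    ∑ j : Fin (s + 1), (-1 : ℤ) ^ ((j : ℕ) + 1) • f (Fin.contractNth j (· * ·) g)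

end

section

variable {D : Type u} [Category.{v} D] [Preadditive D] [HasZeroObject D]
    [HasShift D ℤ] [∀ n : ℤ, (shiftFunctor D n).Additive] [Pretriangulated D]
    [MonoidalCategory D]

/-- The `E`-nilpotent objects: the smallest class of objects which contains all `X ⊗ E` and is
closed under extensions and retracts. -/
inductive IsNilpotent (E : D) : D → Prop
  | tensor (X : D) : IsNilpotent E (X ⊗ E)
  | extension (Δ : Triangle D) (hΔ : Δ ∈ distTriang D) (h₁ : IsNilpotent E Δ.obj₁)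
      (h₃ : IsNilpotent E Δ.obj₃) : IsNilpotent E Δ.obj₂
  | retract {X Y : D} (i : X ⟶ Y) (r : Y ⟶ X) (h : i ≫ r = 𝟙 X) (hY : IsNilpotent E Y) :
      IsNilpotent E X

end

end Vale.Agent.P251.V3
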