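import Vale.Agent.P251.H603.V3.CobDefs
import Mathlib.Tactic.Abel
import Mathlib.Tactic.Ring

/-!
The cobar complex of a Galois extension is the complex of continuous cochains.
-/

set_option linter.unusedSectionVars false

open CategoryTheory MonoidalCategory Limits Pretriangulated MonObj

universe v u w

namespace Vale.Agent.P251.V3

variable {D : Type u} [Category.{v} D] [MonoidalCategory D] [Preadditive D]
  [MonoidalPreadditive D] {E : D} [MonObj E]

lemma unitL_natural {X Y : D} (f : X ⟶ Y) : unitL E X ≫ (E ◁ f) = f ≫ unitL E Y := by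
  simp only [unitL, Category.assoc]
  rw [← whisker_exchange]
  simp

lemma unitL_mul {X : D} (f : X ⟶ E) : unitL E X ≫ (E ◁ f) ≫ μ[E] = f := by
  rw [← Category.assoc, unitL_natural, Category.assoc]
  simp [unitL, MonObj.one_mul]

variable {G : Type w} [Group G] {ρ : G → (E ⟶ E)}

lemma contractNth_zero_zero {s : ℕ} (g : Fin (s + 2) → G) :
    Fin.contractNth (0 : Fin (s + 2)) (· * ·) g 0 = g 0 * g 1 := by
  simp [Fin.contractNth]

lemma contractNth_zero_succ {s : ℕ} (g : Fin (s + 2) → G) (i : Fin s) :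
    Fin.contractNth (0 : Fin (s + 2)) (· * ·) g i.succ = g i.succ.succ := by
  simp [Fin.contractNth]

lemma contractNth_succ_zero {s : ℕ} (g : Fin (s + 2) → G) (j : Fin (s + 1)) :
    Fin.contractNth j.succ (· * ·) g 0 = g 0 := by
  simp [Fin.contractNth]

lemma contractNth_succ_succ {s : ℕ} (g : Fin (s + 2) → G) (j : Fin (s + 1)) (i : Fin s) :
    Fin.contractNth j.succ (· * ·) g i.succ =
      Fin.contractNth j (· * ·) (fun i => g i.succ) i := by
  simp [Fin.contractNth]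

/-- The map `evalAt` with source written as `E ⊗ E^{⊗ s}`. -/
abbrev ev (ρ : G → (E ⟶ E)) (s : ℕ) (g : Fin s → G) : E ⊗ tpow E (𝟙_ D) s ⟶ E := evalAt ρ s g

omit [Preadditive D] [MonoidalPreadditive D] [Group G] in
lemma ev_succ (s : ℕ) (g : Fin (s + 1) → G) :
    ev ρ (s + 1) g = (E ◁ (ev ρ s (fun i => g i.succ) ≫ ρ (g 0))) ≫ μ[E] := rfl

lemma step_aux {A : D} (c : A ⟶ E ⊗ A) (f : E ⊗ A ⟶ E) (r : E ⟶ E) :
    (unitL E (E ⊗ A) - E ◁ c) ≫ (E ◁ (f ≫ r)) ≫ μ[E] = f ≫ r - (E ◁ (c ≫ f ≫ r)) ≫ μ[E] := by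
  rw [Preadditive.sub_comp, unitL_mul, ← MonoidalCategory.whiskerLeft_comp_assoc]

lemma succ_aux {A B : D} {n : ℕ} (c : A ⟶ B) (f : B ⟶ E) (r : E ⟶ E)
    (a₀ : A ⟶ E) (a : Fin n → (A ⟶ E)) (m : Fin n → ℤ) (h : c ≫ f = a₀ + ∑ j, m j • a j) :
    -((E ◁ (c ≫ f ≫ r)) ≫ μ[E]) =
      (-1 : ℤ) • ((E ◁ (a₀ ≫ r)) ≫ μ[E]) + ∑ j, (m j * (-1)) • ((E ◁ (a j ≫ r)) ≫ μ[E]) := by
  have h1 : c ≫ f ≫ r = a₀ ≫ r + ∑ j, m j • (a j ≫ r) := by
    rw [reassoc_of% h, Preadditive.add_comp, Preadditive.sum_comp]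
    simp only [Preadditive.zsmul_comp]
  have h2 : ∀ (k : ℤ) (y : A ⟶ E), E ◁ (k • y) = k • (E ◁ y) := fun k y =>
    (tensorLeft E).map_zsmul
  rw [h1, MonoidalPreadditive.whiskerLeft_add, Preadditive.add_comp]
  have h3 : E ◁ (∑ j, m j • (a j ≫ r)) = ∑ j, m j • (E ◁ (a j ≫ r)) := by
    have := (tensorLeft E).map_sum (fun j => m j • (a j ≫ r)) Finset.univ
    refine this.trans ?_
    exact Finset.sum_congr rfl fun j _ => h2 _ _
  rw [h3, Preadditive.sum_comp, neg_add, ← Finset.sum_neg_distrib, neg_smul, one_smul]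
  congr 1
  refine Finset.sum_congr rfl fun j _ => ?_
  rw [Preadditive.zsmul_comp, mul_neg, _root_.mul_one, neg_smul]

/-- `evalAt` is a chain map from the cobar complex to the complex of inhomogeneous cochains. -/
lemma cobD_ev (hmul : ∀ g h, ρ (g * h) = ρ h ≫ ρ g) (hone : ∀ g, η[E] ≫ ρ g = η[E]) (s : ℕ)
    (g : Fin (s + 1) → G) :
    cobD E (𝟙_ D) (s + 1) ≫ ev ρ (s + 1) g = coboundary ρ (ev ρ s) g := by
  refine (step_aux (cobD E (𝟙_ D) s) (ev ρ s (fun i => g i.succ)) (ρ (g 0))).trans ?_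
  rw [coboundary, sub_eq_add_neg]
  congr 1
  induction s with
  | zero =>
    have h1 : ∀ g' : Fin 0 → G, ev ρ 0 g' = (ρ_ E).hom := fun _ => rfl
    have h2 : unitL E (𝟙_ D) ≫ (ρ_ E).hom ≫ ρ (g 0) = η[E] := by
      have : unitL E (𝟙_ D) ≫ (ρ_ E).hom = η[E] := by simp [unitL, ← unitors_equal]
      rw [reassoc_of% this, hone]
    have h3 : (E ◁ (unitL E (𝟙_ D) ≫ (ρ_ E).hom ≫ ρ (g 0))) ≫ μ[E] = (ρ_ E).hom := by
      rw [h2, MonObj.mul_one]
    rw [Fin.sum_univ_succ]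
    simp only [h1]
    refine (congrArg (fun m => -m) h3).trans ?_
    simp only [Fin.val_zero, zero_add, pow_one, Finset.univ_eq_empty, Finset.sum_empty, add_zero]
    exact (neg_one_zsmul (ρ_ E).hom).symm
  | succ s ih =>
    have h2 : ev ρ (s + 1) (Fin.contractNth (0 : Fin (s + 2)) (· * ·) g) =
        (E ◁ ((ev ρ s (fun i => g i.succ.succ) ≫ ρ (g 1)) ≫ ρ (g 0))) ≫ μ[E] := by
      rw [ev_succ, contractNth_zero_zero, hmul, Category.assoc]
      congr 4
    have h3 : ∀ j : Fin (s + 1), ev ρ (s + 1) (Fin.contractNth j.succ (· * ·) g) =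
        (E ◁ (ev ρ s (Fin.contractNth j (· * ·) (fun i => g i.succ)) ≫ ρ (g 0))) ≫ μ[E] := by
      intro j
      rw [ev_succ, contractNth_succ_zero]
      have : (fun i : Fin s => Fin.contractNth j.succ (· * ·) g i.succ) =
          Fin.contractNth j (· * ·) (fun i => g i.succ) := by
        funext i
        exact contractNth_succ_succ g j i
      rw [this]
    have h4 : cobD E (𝟙_ D) (s + 1) ≫ ev ρ (s + 1) (fun i => g i.succ) =
        coboundary ρ (ev ρ s) (fun i => g i.succ) := by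
      refine (step_aux (cobD E (𝟙_ D) s) (ev ρ s (fun i => g i.succ.succ)) (ρ (g 1))).trans ?_
      rw [coboundary, sub_eq_add_neg]
      exact congrArg (fun m => (ev ρ s fun i => g i.succ.succ) ≫ ρ (g 1) + m)
        (ih (fun i => g i.succ))
    refine (succ_aux (cobD E (𝟙_ D) (s + 1)) (ev ρ (s + 1) (fun i => g i.succ)) (ρ (g 0))
      (ev ρ s (fun i => g i.succ.succ) ≫ ρ (g 1))
      (fun j => ev ρ s (Fin.contractNth j (· * ·) (fun i => g i.succ)))
      (fun j => (-1 : ℤ) ^ ((j : ℕ) + 1)) h4).trans ?_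
    refine Eq.trans ?_ (Fin.sum_univ_succ _).symm
    exact congrArg₂ (fun x y : E ⊗ tpow E (𝟙_ D) (s + 1) ⟶ E => x + y)
      (congrArg (fun y : E ⊗ tpow E (𝟙_ D) (s + 1) ⟶ E => (-1 : ℤ) • y) h2.symm)
      (Finset.sum_congr rfl fun (j : Fin (s + 1)) _ =>
        congrArg₂ (fun (c : ℤ) (y : E ⊗ tpow E (𝟙_ D) (s + 1) ⟶ E) => c • y)
          (pow_succ (-1 : ℤ) ((j : ℕ) + 1)).symm (h3 j).symm)

variable [HasZeroObject D] [HasShift D ℤ] [∀ n : ℤ, (shiftFunctor D n).Additive] [Pretriangulated D]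

/-- If the homotopy of the tensor powers of `E` is given by continuous cochains, and the continuous
cohomology vanishes, then the cobar complex is exact. -/
theorem cobExact_of_galois [TopologicalSpace G] {P : D} [TopologicalSpace (P ⟶ E)]
    (hmul : ∀ g h, ρ (g * h) = ρ h ≫ ρ g) (hone : ∀ g, η[E] ≫ ρ g = η[E])
    (hcont : ∀ (s : ℕ) (x : P ⟶ tpow E (𝟙_ D) (s + 1)), Continuous fun g => x ≫ evalAt ρ s g)
    (hbij : ∀ (s : ℕ) (f : (Fin s → G) → (P ⟶ E)), Continuous f →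
      ∃! x : P ⟶ tpow E (𝟙_ D) (s + 1), ∀ g, x ≫ evalAt ρ s g = f g)
    (s : ℕ)
    (hvan : ∀ f : (Fin (s + 1) → G) → (P ⟶ E), Continuous f → coboundary ρ f = 0 →
      ∃ h : (Fin s → G) → (P ⟶ E), Continuous h ∧ coboundary ρ h = f) :
    CobExact E (𝟙_ D) P (s + 1) := by
  intro z hz
  have hcomp : ∀ {A B : D} {n : ℕ} (x : P ⟶ A) (c : A ⟶ B) (a₀ : A ⟶ E) (a : Fin n → (A ⟶ E))
      (m : Fin n → ℤ) (r : E ⟶ E), x ≫ (a₀ ≫ r + ∑ j, m j • a j) =
        (x ≫ a₀) ≫ r + ∑ j, m j • (x ≫ a j) := by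
    intro A B n x c a₀ a m r
    rw [Preadditive.comp_add, Preadditive.comp_sum, Category.assoc]
    simp only [Preadditive.comp_zsmul]
  -- the cochain of a morphism
  have hchain : ∀ (s : ℕ) (x : P ⟶ E ⊗ tpow E (𝟙_ D) s) (g : Fin (s + 1) → G),
      (x ≫ cobD E (𝟙_ D) (s + 1)) ≫ ev ρ (s + 1) g = coboundary ρ (fun g => x ≫ ev ρ s g) g := by
    intro s x g
    have h := congrArg (fun y => x ≫ y) (cobD_ev (ρ := ρ) hmul hone s g)
    refine (Category.assoc _ _ _).trans (h.trans ?_)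
    exact hcomp x (𝟙 _) (ev ρ s (fun i => g i.succ))
      (fun j => ev ρ s (Fin.contractNth j (· * ·) g)) _ (ρ (g 0))
  obtain ⟨h, hh, hd⟩ := hvan (fun g => z ≫ evalAt ρ (s + 1) g) (hcont (s + 1) z) (by
    funext g
    refine (hchain (s + 1) z g).symm.trans ?_
    have h1 : (z ≫ cobD E (𝟙_ D) (s + 1 + 1)) ≫ ev ρ (s + 1 + 1) g = 0 := by
      rw [hz, zero_comp]
    exact h1)
  obtain ⟨w, hw, -⟩ := hbij s h hh
  refine ⟨w, ?_⟩
  obtain ⟨x, -, hx⟩ := hbij (s + 1) (fun g => z ≫ evalAt ρ (s + 1) g) (hcont (s + 1) z)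
  have h1 : z = x := hx z fun g => rfl
  have h2 : w ≫ cobD E (𝟙_ D) (s + 1) = x := by
    refine hx _ fun g => ?_
    have h3 : (fun g => w ≫ ev ρ s g) = h := funext hw
    exact (hchain s w g).trans ((congrArg (fun f => coboundary ρ f g) h3).trans (congrFun hd g))
  exact h2.trans h1.symm

end Vale.Agent.P251.V3
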