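import Vale.Agent.P251.H603.V3.Galois
import Vale.Agent.P251.H603.Weak
import Vale.Agent.P251.H235.CobarL

/-!
The weak chromatic splitting conjecture fails: version with the Morava stabilizer group.
-/

set_option linter.unusedSectionVars false

open CategoryTheory MonoidalCategory Limits Pretriangulated MonObj

universe v u v' u' w

namespace Vale.Agent.P251.V3

section

variable {T : Type u} [Category.{v} T] [MonoidalCategory T] [SymmetricCategory T]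

/-- The two versions of the powers of `x` agree. -/
lemma exists_power_eq {P : T} (x : P ⟶ 𝟙_ T) (k : ℕ) :
    ∃ φ : tpow P (𝟙_ T) k ≅ H603.tensorPow P k, power x k = φ.hom ≫ H603.pow x k := by
  induction k with
  | zero => exact ⟨Iso.refl (𝟙_ T), (Category.id_comp (𝟙 (𝟙_ T))).symm⟩
  | succ k ih =>
    obtain ⟨φ, hφ⟩ := ih
    refine ⟨(whiskerLeftIso P φ ≪≫ β_ P (H603.tensorPow P k) :
      P ⊗ tpow P (𝟙_ T) k ≅ H603.tensorPow P k ⊗ P), ?_⟩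
    change (x ⊗ₘ power x k) ≫ (λ_ (𝟙_ T)).hom =
      ((P ◁ φ.hom) ≫ (β_ P (H603.tensorPow P k)).hom) ≫
        (H603.pow x k ⊗ₘ x) ≫ (λ_ (𝟙_ T)).hom
    rw [hφ, Category.assoc, ← BraidedCategory.braiding_naturality_assoc, braiding_leftUnitor,
      unitors_equal, whiskerLeft_comp_tensorHom_assoc]

end

section

variable {D : Type u} [Category.{v} D] [Preadditive D] [HasZeroObject D]
    [HasShift D ℤ] [∀ n : ℤ, (shiftFunctor D n).Additive] [Pretriangulated D]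
    [MonoidalCategory D]

lemma IsNilpotent.toH603 {E X : D} (h : IsNilpotent E X) : H603.IsNilpotent E X := by
  induction h with
  | tensor X => exact .tensor X
  | extension Δ hΔ _ _ h₁ h₃ => exact .extension Δ hΔ h₁ h₃
  | retract i r h _ hY => exact .retract i r h hY

end

variable {T : Type u} [Category.{v} T] [Preadditive T] [HasZeroObject T]
    [HasShift T ℤ] [∀ n : ℤ, (shiftFunctor T n).Additive] [Pretriangulated T]
    [MonoidalCategory T] [SymmetricCategory T] [TensorTriangulated T]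
variable {D : Type u'} [Category.{v'} D] [Preadditive D] [HasZeroObject D]
    [HasShift D ℤ] [∀ n : ℤ, (shiftFunctor D n).Additive] [Pretriangulated D]
    [MonoidalCategory D] [SymmetricCategory D] [TensorTriangulated D]

/-- `π_odd (E ⊗ E) = 0` follows from `π_odd E = 0` and `π_* (E ⊗ E) = C(G, π_* E)`. -/
lemma odd_of_galois {E : D} [MonObj E] {G : Type w} {ρ : G → (E ⟶ E)} {P : D}
    (hE : ∀ f : P ⟶ E, f = 0)
    (hinj : ∀ x : P ⟶ tpow E (𝟙_ D) (1 + 1), (∀ g, x ≫ evalAt ρ 1 g = 0) → x = 0)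
    (f : P ⟶ E ⊗ E) : f = 0 := by
  have h1 : f ≫ (E ◁ (ρ_ E).inv) = 0 := hinj (f ≫ (E ◁ (ρ_ E).inv)) fun g => hE _
  rw [← cancel_mono (E ◁ (ρ_ E).inv), h1, zero_comp]

/-- **The weak chromatic splitting conjecture fails**, version with the Morava stabilizer group. -/
theorem weak_splitting_fails
    (p n : ℕ) (hp : p.Prime) (hpn : p ≤ n) (hdiv : ¬ (p - 1) ∣ n)
    (hlt : n ^ 2 < 2 * (p - 1) ^ 2)
    (K J : ℕ → T) (hK : ∀ m, 1 ≤ m → (p : ℤ) • 𝟙 (K m) = 0)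
    (hJ : ∀ m X, IsZero (J m ⊗ X) ↔ ∀ i ≤ m, IsZero (K i ⊗ X))
    (M : T) (a : 𝟙_ T ⟶ M) (b : M ⟶ (𝟙_ T)⟦(1 : ℤ)⟧)
    (hM : Triangle.mk ((p : ℤ) • 𝟙 (𝟙_ T)) a b ∈ distTriang T)
    (S : T) (c : 𝟙_ T ⟶ S) (hc : IsBousfieldLocalization M c)
    (X : T) (l : S ⟶ X) (hl : IsBousfieldLocalization (J (n - 1)) l)
    (Z : T) (z : S ⟶ Z) (hz : IsBousfieldLocalization (K n) z)
    (Y : T) (y : Z ⟶ Y) (hy : IsBousfieldLocalization (J (n - 1)) y)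
    (iₙ : X ⟶ Y) (hi : l ≫ iₙ = z ≫ y)
    (L : T ⥤ D) [L.Monoidal] [L.CommShift ℤ] [L.IsTriangulated] (R : D ⥤ T) [R.Full] [R.Faithful]
    (adj : L ⊣ R) (hL : ∀ A, IsZero (L.obj A) ↔ IsZero (K n ⊗ A))
    (E : D) [MonObj E]
    (htf : ∀ (t : ℤ) (f : (𝟙_ D)⟦t⟧ ⟶ E), (p : ℤ) • f = 0 → f = 0)
    (heven : ∀ t : ℤ, Odd t → ∀ f : (𝟙_ D)⟦t⟧ ⟶ E, f = 0)
    (hnil : IsNilpotent E (𝟙_ D))
    {G : Type w} [Group G] [TopologicalSpace G]
    (ρ : G → (E ⟶ E)) [∀ g, IsMonHom (ρ g)] (hρ : ∀ g h, ρ (g * h) = ρ h ≫ ρ g)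
    [∀ t : ℤ, TopologicalSpace ((𝟙_ D)⟦t⟧ ⟶ E)]
    (hcont : ∀ (t : ℤ) (s : ℕ) (x : (𝟙_ D)⟦t⟧ ⟶ tpow E (𝟙_ D) (s + 1)),
      Continuous fun g => x ≫ evalAt ρ s g)
    (hbij : ∀ (t : ℤ) (s : ℕ) (f : (Fin s → G) → ((𝟙_ D)⟦t⟧ ⟶ E)), Continuous f →
      ∃! x : (𝟙_ D)⟦t⟧ ⟶ tpow E (𝟙_ D) (s + 1), ∀ g, x ≫ evalAt ρ s g = f g)
    (hvan : ¬ (p - 1) ∣ n → ∀ (t : ℤ) (s : ℕ), n ^ 2 ≤ s →
      ∀ f : (Fin (s + 1) → G) → ((𝟙_ D)⟦t⟧ ⟶ E), Continuous f → coboundary ρ f = 0 →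
        ∃ h : (Fin s → G) → ((𝟙_ D)⟦t⟧ ⟶ E), Continuous h ∧ coboundary ρ h = f)
    (x : (𝟙_ T)⟦(2 * p ^ 2 - 2 * p - 2 : ℤ)⟧ ⟶ 𝟙_ T) (hx : (p : ℤ) • x = 0)
    (EO : T) [MonObj EO] (hEO : ∀ W : T, IsZero (K (p - 1) ⊗ W) → ∀ g : W ⟶ EO, g = 0)
    (hβ : power x ((p - 1) ^ 2) ≫ η[EO] ≠ 0) :
    ¬ ∃ r : Y ⟶ X, iₙ ≫ r = 𝟙 X := by
  let _ := toH603 T
  let _ := toH603 D
  obtain ⟨F, i, δ, hF⟩ := distinguished_cocone_triangle₁ η[E]
  have hone : ∀ g, η[E] ≫ ρ g = η[E] := fun g => IsMonHom.one_hom (ρ g)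
  refine H603.weak_splitting_fails p n hp hpn hdiv hlt K J hK hJ M a b hM S c hc X l hl Z z hz
    Y y hy iₙ hi L R adj hL E F i δ hF htf ?_ hnil.toH603 ?_ x hx EO hEO ?_
  · intro t ht f
    refine odd_of_galois (ρ := ρ) (heven t ht) (fun x hx' => ?_) f
    obtain ⟨x₀, -, hx₀⟩ := hbij t 1 0 continuous_const
    rw [hx₀ x hx', hx₀ 0 (fun g => zero_comp)]
  · intro hdiv' s hs
    refine adamsE₂Vanishes_of_cobExact hF (n ^ 2) (fun s hs t => ?_) s hs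
    obtain ⟨s, rfl⟩ := Nat.exists_eq_add_of_lt hs
    exact cobExact_of_galois hρ hone (hcont t) (hbij t) _ (hvan hdiv' t _ (by omega))
  · intro h0
    obtain ⟨φ, hφ⟩ := exists_power_eq x ((p - 1) ^ 2)
    apply hβ
    rw [hφ, Category.assoc, h0, comp_zero]

end Vale.Agent.P251.V3
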